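import Vale.Agent.P165.Q.QDefs
import Vale.Agent.P165.PQ

/-!
# P165 QT: the lower bound for `p_u`
-/

open Finset

namespace Vale.Agent.P165
namespace QT

variable {V : Type*} [DecidableEq V]

/-- all orbits of an infinite connected quasi-transitive graph are infinite -/
theorem orb_infinite [Infinite V] (G : SimpleGraph V) [G.LocallyFinite] (hG : G.Connected)
    (hF : Quasi G) (o : V) : {x | Orb G o x}.Infinite := by
  obtain ⟨T, hT⟩ := hF
  refine PQaux.orbit_infinite hG ⟨T, fun x => ?_⟩ o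
  obtain ⟨y, hy, f, hf⟩ := hT x
  refine ⟨y, hy, f.symm, ?_⟩
  rw [← hf]
  exact f.symm_apply_apply x

/-- [QPU] -/
theorem pu_ge [Infinite V] (G : SimpleGraph V) [G.LocallyFinite] (hG : G.Connected)
    (hO : ∀ o : V, {x | Orb G o x}.Infinite) {r : ℝ} (hr : 0 < r)
    (hnw : ∀ k x y, nw G k x y ≤ r ^ k)
    (hB : ∀ (k : ℕ) (B : Finset V), ∑ x ∈ B, ∑ y ∈ B, nw G k x y ≤ r ^ k * B.card) :
    1 / r ≤ pu G :=
  le_pu hG fun p hp => not_unique_orbit hG hO hr.le hnw hB p (by
    rwa [lt_div_iff₀ hr] at hp)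

end QT
end Vale.Agent.P165
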