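import Vale.Agent.P165.Q.QDefs

/-!
P165: balls and powers of a quasi-transitive graph.
-/

open Finset

namespace Vale.Agent.P165
namespace QT
namespace QB

variable {V : Type*} [DecidableEq V]

open Vale.Agent.P165.Pow

omit [DecidableEq V] in
/-- an automorphism of `G` is an automorphism of the power -/
theorem orb_pw {G : SimpleGraph V} {x y : V} (h : Orb G x y) (k : ℕ) : Orb (pw G k) x y := by
  obtain ⟨φ, hφ⟩ := h
  refine ⟨⟨φ.toEquiv, ?_⟩, hφ⟩
  intro a b
  constructor
  · rintro ⟨h1, w, hw⟩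
    refine ⟨fun e => h1 (by rw [e]), ?_⟩
    have h2 : ∀ z, φ.symm (φ.toEquiv z) = z := fun z => φ.symm_apply_apply z
    refine ⟨((w.map φ.symm.toHom).copy (h2 a) (h2 b)), ?_⟩
    simpa using hw
  · rintro ⟨h1, w, hw⟩
    exact ⟨fun e => h1 (φ.injective e), w.map φ.toHom, by simpa using hw⟩

omit [DecidableEq V] in
theorem orb_symm {G : SimpleGraph V} {x y : V} (h : Orb G x y) : Orb G y x := by
  obtain ⟨φ, hφ⟩ := h
  exact ⟨φ.symm, by rw [← hφ]; exact φ.symm_apply_apply x⟩

omit [DecidableEq V] in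
theorem orb_trans {G : SimpleGraph V} {x y z : V} (h : Orb G x y) (h' : Orb G y z) :
    Orb G x z := by
  obtain ⟨φ, hφ⟩ := h
  obtain ⟨ψ, hψ⟩ := h'
  exact ⟨φ.trans ψ, by rw [← hψ, ← hφ]; rfl⟩

theorem ball_mono {G : SimpleGraph V} [G.LocallyFinite] {k l : ℕ} (h : k ≤ l) (x : V) :
    ball G k x ⊆ ball G l x := by
  intro y hy
  rw [mem_ball] at hy ⊢
  obtain ⟨w, hw⟩ := hy
  exact ⟨w, hw.trans h⟩

theorem ball_comp {G : SimpleGraph V} [G.LocallyFinite] {k l : ℕ} {x y z : V}
    (h1 : y ∈ ball G k x) (h2 : z ∈ ball G l y) : z ∈ ball G (k + l) x := by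
  rw [mem_ball] at h1 h2 ⊢
  obtain ⟨w, hw⟩ := h1
  obtain ⟨w', hw'⟩ := h2
  exact ⟨w.append w', by rw [SimpleGraph.Walk.length_append]; omega⟩

theorem ball_map {G : SimpleGraph V} [G.LocallyFinite] (φ : G ≃g G) {k : ℕ} {x y : V}
    (h : y ∈ ball G k x) : φ y ∈ ball G k (φ x) := by
  rw [mem_ball] at h ⊢
  obtain ⟨w, hw⟩ := h
  exact ⟨w.map φ.toHom, by simpa using hw⟩

theorem card_ball_orb {G : SimpleGraph V} [G.LocallyFinite] {x y : V} (h : Orb G x y) (k : ℕ) :
    (ball G k x).card ≤ (ball G k y).card := by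
  obtain ⟨φ, rfl⟩ := h
  rw [← card_image_of_injective (ball G k x) φ.injective]
  apply card_le_card
  intro z hz
  rw [mem_image] at hz
  obtain ⟨u, hu, rfl⟩ := hz
  exact ball_map φ hu

/-- every orbit meets every ball of a fixed radius -/
theorem exists_D {G : SimpleGraph V} [G.LocallyFinite] (hG : G.Connected) (hF : Quasi G) :
    ∃ D : ℕ, ∀ x z : V, ∃ y ∈ ball G D z, Orb G x y := by
  obtain ⟨F, hF⟩ := hF
  have h1 : ∀ q : V × V, ∃ n, q.2 ∈ ball G n q.1 := by
    intro q
    obtain ⟨w⟩ := hG.preconnected q.1 q.2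
    exact ⟨w.length, mem_ball.2 ⟨w, le_rfl⟩⟩
  choose n hn using h1
  refine ⟨(F ×ˢ F).sup n, fun x z => ?_⟩
  obtain ⟨t, ht, hxt⟩ := hF x
  obtain ⟨t', ht', hzt⟩ := hF z
  obtain ⟨ψ, hψ⟩ := orb_symm hzt
  refine ⟨ψ t, ?_, orb_trans hxt ⟨ψ, rfl⟩⟩
  rw [← hψ]
  apply ball_map
  have h2 : n (t', t) ≤ (F ×ˢ F).sup n := le_sup (mem_product.2 ⟨ht', ht⟩)
  exact ball_mono h2 t' (hn (t', t))

/-- uniform bound of the balls -/
theorem exists_B {G : SimpleGraph V} [G.LocallyFinite] (hF : Quasi G) (m : ℕ) :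
    ∃ B : ℕ, ∀ x : V, (ball G m x).card ≤ B := by
  obtain ⟨F, hF⟩ := hF
  refine ⟨F.sup (fun t => (ball G m t).card), fun x => ?_⟩
  obtain ⟨t, ht, hxt⟩ := hF x
  exact (card_ball_orb hxt m).trans (le_sup (f := fun t => (ball G m t).card) ht)

/-- splitting a walk -/
theorem split {G : SimpleGraph V} [G.LocallyFinite] {k m D : ℕ} (hk : D ≤ k) {x y : V}
    (h : y ∈ ball G (k + m) x) : ∃ u, u ∈ ball G (k - D) x ∧ y ∈ ball G (m + D) u := by
  rw [mem_ball] at h
  obtain ⟨w, hw⟩ := h
  refine ⟨w.getVert (k - D), ?_, ?_⟩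
  · rw [mem_ball]
    refine ⟨w.take (k - D), ?_⟩
    rw [SimpleGraph.Walk.take_length]
    exact min_le_left _ _
  · rw [mem_ball]
    refine ⟨w.drop (k - D), ?_⟩
    rw [SimpleGraph.Walk.drop_length]
    omega

open Classical in
/-- the key comparison -/
theorem key {G : SimpleGraph V} [G.LocallyFinite] (hG : G.Connected) (hF : Quasi G) :
    ∃ D B : ℕ, 0 < B ∧ ∀ (z : V) (k : ℕ), D ≤ k → ∀ x x' : V,
      (ball G (k + 1) x).card ≤ B * ((ball G k x').filter (fun y => Orb G z y)).card := by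
  obtain ⟨D, hD⟩ := exists_D hG hF
  obtain ⟨B, hB⟩ := exists_B (G := G) hF (1 + D + D + D)
  refine ⟨D, B + 1, Nat.succ_pos B, ?_⟩
  intro z k hk x x'
  obtain ⟨x'', hx'', ho⟩ := hD x x'
  have h1 : (ball G (k + 1) x).card ≤ (ball G (k + (1 + D)) x').card := by
    refine (card_ball_orb ho (k + 1)).trans (card_le_card ?_)
    intro y hy
    have := ball_comp hx'' hy
    refine ball_mono ?_ x' this
    omega
  refine h1.trans ?_
  have h2 : ∀ y ∈ ball G (k + (1 + D)) x', ∃ y' ∈ (ball G k x').filter (fun y => Orb G z y),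
      y ∈ ball G (1 + D + D + D) y' := by
    intro y hy
    obtain ⟨u, hu, huy⟩ := split hk hy
    obtain ⟨y', hy', hz⟩ := hD z u
    refine ⟨y', ?_, ?_⟩
    · rw [mem_filter]
      refine ⟨?_, hz⟩
      have := ball_comp hu hy'
      refine ball_mono ?_ x' this
      omega
    · have := ball_comp (ball_symm hy') huy
      refine ball_mono ?_ y' this
      omega
  let f : V → V := fun y => if hy : y ∈ ball G (k + (1 + D)) x' then (h2 y hy).choose else y
  have hf : ∀ y ∈ ball G (k + (1 + D)) x', f y ∈ (ball G k x').filter (fun y => Orb G z y) ∧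
      y ∈ ball G (1 + D + D + D) (f y) := by
    intro y hy
    have : f y = (h2 y hy).choose := dif_pos hy
    rw [this]
    exact (h2 y hy).choose_spec
  have h3 := card_le_mul_card_image_of_maps_to (s := ball G (k + (1 + D)) x')
    (t := (ball G k x').filter (fun y => Orb G z y)) (f := f) (fun y hy => (hf y hy).1) B
    (fun b _ => by
      refine (card_le_card ?_).trans (hB b)
      intro y hy
      rw [mem_filter] at hy
      have := (hf y hy.1).2
      rwa [hy.2] at this)
  refine h3.trans ?_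
  exact Nat.mul_le_mul_right _ (Nat.le_succ B)

/-- expansion of the powers -/
theorem expansion {G : SimpleGraph V} [G.LocallyFinite] {d B : ℕ} {h : ℝ}
    (hd : ∀ x, (G.neighborFinset x).card ≤ d)
    (hA : ∀ A : Finset V, h * (A.card : ℝ) ≤ ((vbd G A).card : ℝ))
    (m : ℕ) (o : V) (hB : ∀ x, (ball G (m + 1) o).card ≤ B * (ball G m x).card)
    [(pw G (m + 1)).LocallyFinite] (A : Finset V) :
    h * ((ball G (m + 1) o).card : ℝ) * (A.card : ℝ) ≤
      ((B : ℝ) * ((d : ℝ) + 1)) * (ebd (pw G (m + 1)) A : ℝ) := by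
  set e : ℕ := ebd (pw G (m + 1)) A with he
  have he' : e = ∑ x ∈ A, (ball G (m + 1) x \ A).card := by
    rw [he, ebd]
    exact sum_congr rfl fun x hx => by rw [nbr_sdiff (m + 1) hx]
  have hch : ∀ y ∈ vbd G A, ∃ x ∈ A, G.Adj x y := by
    intro y hy
    rw [vbd, mem_sdiff, mem_biUnion] at hy
    obtain ⟨⟨x, hx, hxy⟩, -⟩ := hy
    exact ⟨x, hx, by rwa [SimpleGraph.mem_neighborFinset] at hxy⟩
  classical
  let c : V → V := fun y => if hy : y ∈ vbd G A then (hch y hy).choose else y
  have hc : ∀ y ∈ vbd G A, c y ∈ A ∧ G.Adj (c y) y := by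
    intro y hy
    have : c y = (hch y hy).choose := dif_pos hy
    rw [this]
    exact (hch y hy).choose_spec
  have hloc : ∀ y ∈ vbd G A, (ball G (m + 1) o).card ≤
      B * ((A.filter (fun z => y ∈ ball G (m + 1) z)).card
        + (ball G (m + 1) (c y) \ A).card) := by
    intro y hy
    obtain ⟨hcA, hadj⟩ := hc y hy
    refine (hB (c y)).trans (Nat.mul_le_mul_left B ?_)
    have h1 : ball G m (c y) ⊆ A.filter (fun z => y ∈ ball G (m + 1) z) ∪
        (ball G (m + 1) (c y) \ A) := by
      intro z hz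
      rw [mem_union]
      by_cases hzA : z ∈ A
      · left
        rw [mem_filter]
        exact ⟨hzA, ball_symm (ball_adj_sub m hadj hz)⟩
      · right
        rw [mem_sdiff]
        exact ⟨ball_succ_sub m _ hz, hzA⟩
    exact (card_le_card h1).trans (card_union_le _ _)
  have hsum : (vbd G A).card * (ball G (m + 1) o).card ≤
      B * (∑ y ∈ vbd G A, (A.filter (fun z => y ∈ ball G (m + 1) z)).card
        + ∑ y ∈ vbd G A, (ball G (m + 1) (c y) \ A).card) := by
    rw [← sum_add_distrib, mul_sum]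
    calc (vbd G A).card * (ball G (m + 1) o).card
        = ∑ _y ∈ vbd G A, (ball G (m + 1) o).card := by rw [sum_const, smul_eq_mul]
      _ ≤ _ := sum_le_sum hloc
  have hs1 : ∑ y ∈ vbd G A, (A.filter (fun z => y ∈ ball G (m + 1) z)).card ≤ e := by
    rw [he']
    have h1 : ∑ y ∈ vbd G A, (A.filter (fun z => y ∈ ball G (m + 1) z)).card =
        ∑ z ∈ A, ((vbd G A).filter (fun y => y ∈ ball G (m + 1) z)).card := by
      simp only [card_filter]
      exact sum_comm
    rw [h1]
    refine sum_le_sum fun z _ => card_le_card ?_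
    intro y hy
    rw [mem_filter] at hy
    rw [mem_sdiff]
    refine ⟨hy.2, ?_⟩
    have := hy.1
    rw [vbd, mem_sdiff] at this
    exact this.2
  have hs2 : ∑ y ∈ vbd G A, (ball G (m + 1) (c y) \ A).card ≤ d * e := by
    rw [he', mul_sum]
    rw [← sum_fiberwise_of_maps_to (g := c) (t := A) (fun y hy => (hc y hy).1)]
    refine sum_le_sum fun x _ => ?_
    calc ∑ y ∈ (vbd G A).filter (fun y => c y = x), (ball G (m + 1) (c y) \ A).card
        = ∑ _y ∈ (vbd G A).filter (fun y => c y = x), (ball G (m + 1) x \ A).card :=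
          sum_congr rfl fun y hy => by rw [(mem_filter.1 hy).2]
      _ = ((vbd G A).filter (fun y => c y = x)).card * (ball G (m + 1) x \ A).card := by
          rw [sum_const, smul_eq_mul]
      _ ≤ d * (ball G (m + 1) x \ A).card := by
          apply Nat.mul_le_mul_right
          refine le_trans (card_le_card ?_) (hd x)
          intro y hy
          rw [mem_filter] at hy
          rw [SimpleGraph.mem_neighborFinset]
          have := (hc y hy.1).2
          rwa [hy.2] at this
  have hfin : (vbd G A).card * (ball G (m + 1) o).card ≤ (B * (d + 1)) * e := by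
    calc (vbd G A).card * (ball G (m + 1) o).card ≤ B * (e + d * e) :=
          hsum.trans (Nat.mul_le_mul_left B (Nat.add_le_add hs1 hs2))
      _ = (B * (d + 1)) * e := by ring
  have hfinR : ((vbd G A).card : ℝ) * ((ball G (m + 1) o).card : ℝ) ≤
      ((B : ℝ) * ((d : ℝ) + 1)) * (e : ℝ) := by
    exact_mod_cast hfin
  calc h * ((ball G (m + 1) o).card : ℝ) * (A.card : ℝ)
      = (h * (A.card : ℝ)) * ((ball G (m + 1) o).card : ℝ) := by ring
    _ ≤ ((vbd G A).card : ℝ) * ((ball G (m + 1) o).card : ℝ) :=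
        mul_le_mul_of_nonneg_right (hA A) (Nat.cast_nonneg _)
    _ ≤ _ := hfinR

end QB

variable {V : Type*} [DecidableEq V]

open QB Vale.Agent.P165.Pow in
/-- [QBALL] the powers of a nonamenable quasi-transitive graph -/
theorem pw_bounds [Infinite V] (G : SimpleGraph V) [G.LocallyFinite] (hG : G.Connected)
    (hF : Quasi G) {h : ℝ} (h0 : 0 < h)
    (hA : ∀ A : Finset V, h * (A.card : ℝ) ≤ ((Pow.vbd G A).card : ℝ)) :
    ∃ (c C e : ℝ) (b : ℕ → ℝ), 0 < c ∧ 0 < C ∧ 0 < e ∧
      (∀ N : ℝ, ∃ k0, ∀ k, k0 ≤ k → N ≤ b k) ∧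
      ∃ k1 : ℕ, 1 ≤ k1 ∧ ∀ k, k1 ≤ k → ∀ _ : (pw G k).LocallyFinite,
        (∀ x y, c * b k ≤ (cnt (pw G k) x y : ℝ)) ∧
        (∀ x, (((pw G k).neighborFinset x).card : ℝ) ≤ C * b k) ∧
        (∀ A : Finset V, e * b k * A.card ≤ (ebd (pw G k) A : ℝ)) := by
  classical
  obtain ⟨o⟩ : Nonempty V := inferInstance
  obtain ⟨D, B, hB0, hkey⟩ := key hG hF
  obtain ⟨B1, hB1⟩ := exists_B (G := G) hF 1
  have hBpos : (0 : ℝ) < B := by exact_mod_cast hB0
  have hdeg : ∀ x, (G.neighborFinset x).card ≤ B1 := by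
    intro x
    refine le_trans (card_le_card ?_) (hB1 x)
    intro y hy
    rw [SimpleGraph.mem_neighborFinset] at hy
    rw [mem_ball]
    exact ⟨SimpleGraph.Walk.cons hy SimpleGraph.Walk.nil, by simp⟩
  obtain ⟨k2, hk2⟩ := ball_large hG o (2 * B)
  refine ⟨1 / (2 * B), B, h / (B * ((B1 : ℝ) + 1)), fun k => ((ball G k o).card : ℝ),
    by positivity, hBpos, by positivity, ?_, max (D + 1) k2, ?_, ?_⟩
  · intro N
    obtain ⟨N', hN'⟩ := exists_nat_gt N
    obtain ⟨k0, hk0⟩ := ball_large hG o N'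
    refine ⟨k0, fun k hk => hN'.le.trans ?_⟩
    have h1 : (N' : ℝ) ≤ ((ball G k o).card : ℝ) := by exact_mod_cast hk0 k hk
    exact h1
  · exact (Nat.succ_pos D).trans_le (le_max_left _ _)
  · intro k hk _
    have hkD : D + 1 ≤ k := (le_max_left _ _).trans hk
    have hkk : k2 ≤ k := (le_max_right _ _).trans hk
    have hkD' : D ≤ k := by omega
    have hcard : ∀ x, ((pw G k).neighborFinset x).card + 1 = (ball G k x).card := card_nbr k
    refine ⟨fun x y => ?_, fun x => ?_, fun A => ?_⟩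
    · have h1 : (ball G k o).card ≤ B * ((ball G k x).filter (fun z => Orb G y z)).card :=
        (card_le_card (ball_succ_sub k o)).trans (hkey y k hkD' o x)
      have h2 : ((ball G k x).filter (fun z => Orb G y z)).card ≤ cnt (pw G k) x y + 1 := by
        have h3 : (ball G k x).filter (fun z => Orb G y z) ⊆
            insert x (((pw G k).neighborFinset x).filter (fun z => Orb (pw G k) y z)) := by
          intro z hz
          rw [mem_filter] at hz
          rw [mem_insert, mem_filter, SimpleGraph.mem_neighborFinset]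
          by_cases hzx : z = x
          · exact Or.inl hzx
          · right
            refine ⟨⟨fun e => hzx e.symm, ?_⟩, orb_pw hz.2 k⟩
            have := hz.1
            rwa [mem_ball] at this
        refine (card_le_card h3).trans ((card_insert_le _ _).trans ?_)
        rfl
      have h4 : (ball G k o).card ≤ B * (cnt (pw G k) x y + 1) :=
        h1.trans (Nat.mul_le_mul_left B h2)
      have h5 := hk2 k hkk
      have h4R : ((ball G k o).card : ℝ) ≤ (B : ℝ) * ((cnt (pw G k) x y : ℝ) + 1) := by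
        exact_mod_cast h4
      have h5R : 2 * (B : ℝ) ≤ ((ball G k o).card : ℝ) := by exact_mod_cast h5
      rw [div_mul_eq_mul_div, one_mul, div_le_iff₀ (by positivity)]
      nlinarith
    · have h1 : ((pw G k).neighborFinset x).card ≤ B * (ball G k o).card := by
        have h2 := hcard x
        have h3 : (ball G k x).card ≤ B * ((ball G k o).filter (fun z => Orb G x z)).card :=
          (card_le_card (ball_succ_sub k x)).trans (hkey x k hkD' x o)
        have h4 : B * ((ball G k o).filter (fun z => Orb G x z)).card ≤ B * (ball G k o).card :=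
          Nat.mul_le_mul_left B (card_le_card (filter_subset _ _))
        omega
      have h1R : (((pw G k).neighborFinset x).card : ℝ) ≤ (B : ℝ) * ((ball G k o).card : ℝ) := by
        exact_mod_cast h1
      exact h1R
    · obtain ⟨m, rfl⟩ : ∃ m, k = m + 1 := ⟨k - 1, by omega⟩
      have h1 := expansion (G := G) (B := B) hdeg hA m o (fun x =>
        (hkey x m (by omega) o x).trans
          (Nat.mul_le_mul_left B (card_le_card (filter_subset _ _)))) A
      rw [div_mul_eq_mul_div, div_mul_eq_mul_div, div_le_iff₀ (by positivity)]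
      linarith

omit [DecidableEq V] in
/-- [QBALL] -/
theorem pw_quasi (G : SimpleGraph V) (hF : Quasi G) (k : ℕ) : Quasi (pw G k) := by
  obtain ⟨F, hF⟩ := hF
  refine ⟨F, fun x => ?_⟩
  obtain ⟨y, hy, hxy⟩ := hF x
  exact ⟨y, hy, QB.orb_pw hxy k⟩

end QT
end Vale.Agent.P165
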