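import Vale.Agent.P165.Q.QDefs
import Vale.Agent.P165.DA

/-!
# P165 QT, row QDA: bounded susceptibility from `phi < 1` at one point of every orbit
-/

open Finset

namespace Vale.Agent.P165
namespace QT

variable {V : Type*} [DecidableEq V]

/-- [QDA] -/
theorem chi_bdd (G : SimpleGraph V) [G.LocallyFinite] (hF : Quasi G) {p : ℝ} (h0 : 0 ≤ p)
    (h1 : p ≤ 1) (hS : ∀ x, ∃ S : Finset V, x ∈ S ∧ phi G p S x < 1) :
    ∃ M : ℝ, ∀ (L : Finset V) (x : V), chi G p L x ≤ M := by
  classical
  obtain ⟨F, hF⟩ := hF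
  choose S hxS hphi using hS
  -- the bound over the finite set of representatives
  set M : ℝ := ∑ y ∈ F, ((S y).card : ℝ) / (1 - phi G p (S y) y) with hM
  have hterm : ∀ y, 0 ≤ ((S y).card : ℝ) / (1 - phi G p (S y) y) := fun y =>
    div_nonneg (Nat.cast_nonneg _) (by linarith [hphi y])
  have hM0 : 0 ≤ M := sum_nonneg fun y _ => hterm y
  refine ⟨M, fun L x => ?_⟩
  have hzero : ∀ z, z ∉ L → chi G p L z = 0 := fun z hz =>
    sum_eq_zero fun y _ => U12.tau_eq_zero_left hz
  by_cases hL : L.Nonempty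
  swap
  · rw [not_nonempty_iff_eq_empty] at hL
    rw [hzero x (by rw [hL]; exact notMem_empty x)]
    exact hM0
  obtain ⟨w, hw, hmax⟩ := exists_max_image L (chi G p L) hL
  have hMw : ∀ z, chi G p L z ≤ chi G p L w := by
    intro z
    by_cases hz : z ∈ L
    · exact hmax z hz
    · rw [hzero z hz]
      exact DAx.chi_nonneg h0 h1 L w
  obtain ⟨y, hy, e, he⟩ := hF w
  have hwy : e.symm y = w := by rw [← he, e.symm_apply_apply]
  have hwS : w ∈ (S y).image e.symm := hwy ▸ mem_image_of_mem e.symm (hxS y)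
  have hstep := DAx.chi_step (G := G) h0 h1 hwS hMw
  have hcard : ((S y).image e.symm).card = (S y).card :=
    card_image_of_injective _ e.symm.injective
  have hph : phi G p ((S y).image e.symm) w = phi G p (S y) y := by
    have := Iso.phi_iso e.symm p (S y) y
    rwa [hwy] at this
  rw [hcard, hph] at hstep
  have hpos : 0 < 1 - phi G p (S y) y := by linarith [hphi y]
  have h2 : chi G p L w ≤ ((S y).card : ℝ) / (1 - phi G p (S y) y) := by
    rw [le_div_iff₀ hpos]
    linarith
  have h3 : ((S y).card : ℝ) / (1 - phi G p (S y) y) ≤ M :=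
    single_le_sum (f := fun y => ((S y).card : ℝ) / (1 - phi G p (S y) y))
      (fun z _ => hterm z) hy
  exact (hMw x).trans (h2.trans h3)

end QT
end Vale.Agent.P165
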