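import Vale.Agent.P165.Defs
import Vale.Agent.P165.Pow

/-!
# P165 QT: quasi-transitive graphs, definitions
-/

open Finset

namespace Vale.Agent.P165
namespace QT

variable {V : Type*} [DecidableEq V]

/-- same orbit under the automorphism group -/
def Orb (G : SimpleGraph V) (x y : V) : Prop := ∃ φ : G ≃g G, φ x = y

/-- quasi-transitive: finitely many orbits -/
def Quasi (G : SimpleGraph V) : Prop := ∃ F : Finset V, ∀ x, ∃ y ∈ F, Orb G x y

open Classical in
/-- number of neighbours of `x` in the orbit of `y` -/
noncomputable def cnt (G : SimpleGraph V) [G.LocallyFinite] (x y : V) : ℕ :=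
  ((G.neighborFinset x).filter (fun z => Orb G y z)).card

end QT
end Vale.Agent.P165
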