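import Vale.Agent.P165.Perron

/-!
P165: Perron vector with a bound of the ratio of its entries.
-/

open Finset

namespace Vale.Agent.P165
namespace QT

/-- [QPF] Perron-Frobenius for a positive matrix -/
theorem perron {O : Type*} [Fintype O] [Nonempty O] (Q : O → O → ℝ) {m M : ℝ} (hm : 0 < m)
    (hQ : ∀ a b, m ≤ Q a b) (hM : ∀ a b, Q a b ≤ M) :
    ∃ (Λ : ℝ) (h : O → ℝ), 0 < Λ ∧ (∀ a, 1 ≤ h a) ∧ (∀ a, h a ≤ M / m) ∧
      ∀ a, ∑ b, Q a b * h b = Λ * h a := by
  classical
  obtain ⟨L, w, hL, hw, heq⟩ := PF.perron Q (fun a b => hm.trans_le (hQ a b))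
  obtain ⟨a0, -, ha0⟩ := exists_min_image (univ : Finset O) w univ_nonempty
  have hmM : ∀ a, w a ≤ M / m * w a0 := by
    intro a
    set s := ∑ b, w b with hs
    have h1 : L * w a ≤ M * s := by
      rw [← heq a, hs, mul_sum]
      exact sum_le_sum fun b _ => mul_le_mul_of_nonneg_right (hM a b) (hw b).le
    have h2 : m * s ≤ L * w a0 := by
      rw [← heq a0, hs, mul_sum]
      exact sum_le_sum fun b _ => mul_le_mul_of_nonneg_right (hQ a0 b) (hw b).le
    have hM0 : 0 ≤ M := (hm.trans_le (hQ a0 a0)).le.trans (hM a0 a0)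
    have h3 : L * w a ≤ L * (M / m * w a0) := by
      calc L * w a ≤ M * s := h1
        _ = M / m * (m * s) := by field_simp
        _ ≤ M / m * (L * w a0) := mul_le_mul_of_nonneg_left h2 (div_nonneg hM0 hm.le)
        _ = L * (M / m * w a0) := by ring
    exact le_of_mul_le_mul_left h3 hL
  refine ⟨L, fun a => w a / w a0, hL, fun a => ?_, fun a => ?_, fun a => ?_⟩
  · rw [one_le_div (hw a0)]
    exact ha0 a (mem_univ a)
  · rw [div_le_iff₀ (hw a0)]
    exact hmM a
  · have h1 : ∑ b, Q a b * (w b / w a0) = (∑ b, Q a b * w b) / w a0 := by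
      rw [sum_div]
      exact sum_congr rfl fun b _ => by ring
    rw [h1, heq a]
    ring

end QT
end Vale.Agent.P165
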