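import Vale.Agent.P165.Q.QDefs
import Vale.Agent.P165.Q.QPF

/-!
# P165 QT, row QEIG: the invariant positive eigenfunction of a quasi-transitive graph
-/

open Finset

namespace Vale.Agent.P165
namespace QT

namespace Eig

variable {V : Type*}

theorem orb_refl (G : SimpleGraph V) (x : V) : Orb G x x := ⟨SimpleGraph.Iso.refl, rfl⟩

theorem orb_symm {G : SimpleGraph V} {x y : V} (h : Orb G x y) : Orb G y x := by
  obtain ⟨f, hf⟩ := h
  exact ⟨f.symm, by rw [← hf]; exact f.symm_apply_apply x⟩

theorem orb_trans {G : SimpleGraph V} {x y z : V} (h : Orb G x y) (h' : Orb G y z) :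
    Orb G x z := by
  obtain ⟨f, hf⟩ := h
  obtain ⟨g, hg⟩ := h'
  exact ⟨f.trans g, by rw [← hg, ← hf]; rfl⟩

/-- the orbit equivalence relation -/
def orbSetoid (G : SimpleGraph V) : Setoid V where
  r := Orb G
  iseqv := ⟨orb_refl G, orb_symm, orb_trans⟩

variable [DecidableEq V]

theorem cnt_right (G : SimpleGraph V) [G.LocallyFinite] (x : V) {y y' : V}
    (h : Orb G y y') : cnt G x y = cnt G x y' := by
  classical
  unfold cnt
  congr 1
  refine Finset.filter_congr fun z _ => ⟨fun hz => orb_trans (orb_symm h) hz,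
    fun hz => orb_trans h hz⟩

theorem cnt_left (G : SimpleGraph V) [G.LocallyFinite] (y : V) {x x' : V}
    (h : Orb G x x') : cnt G x y = cnt G x' y := by
  classical
  obtain ⟨f, hf⟩ := h
  unfold cnt
  refine Finset.card_bij' (fun z _ => f z) (fun z _ => f.symm z) ?_ ?_ ?_ ?_
  · intro z hz
    rw [Finset.mem_filter, SimpleGraph.mem_neighborFinset] at hz ⊢
    refine ⟨?_, orb_trans hz.2 ⟨f, rfl⟩⟩
    rw [← hf]
    exact f.map_adj_iff.2 hz.1
  · intro z hz
    rw [Finset.mem_filter, SimpleGraph.mem_neighborFinset] at hz ⊢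
    refine ⟨?_, orb_trans hz.2 ⟨f.symm, rfl⟩⟩
    have h1 : G.Adj (f.symm x') (f.symm z) := f.symm.map_adj_iff.2 hz.1
    rwa [← hf, f.symm_apply_apply] at h1
  · intro z _
    exact f.symm_apply_apply z
  · intro z _
    exact f.apply_symm_apply z

end Eig

open Eig

/-- [QEIG] the invariant positive eigenfunction -/
theorem eig {V : Type*} [DecidableEq V] [Nonempty V] (G : SimpleGraph V) [G.LocallyFinite]
    (hF : Quasi G) {m M : ℝ}
    (hm : 0 < m) (h1 : ∀ x y, m ≤ (cnt G x y : ℝ))
    (h2 : ∀ x, ((G.neighborFinset x).card : ℝ) ≤ M) :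
    ∃ (Λ : ℝ) (h : V → ℝ), 0 < Λ ∧ (∀ x, 1 ≤ h x) ∧ (∀ x, h x ≤ M / m) ∧
      (∀ x y, Orb G x y → h x = h y) ∧
      ∀ x, ∑ y ∈ G.neighborFinset x, h y = Λ * h x := by
  classical
  obtain ⟨F, hFF⟩ := hF
  let q : V → Quotient (orbSetoid G) := fun x => Quotient.mk (orbSetoid G) x
  have hq : ∀ x y, q x = q y ↔ Orb G x y := fun x y => Quotient.eq (r := orbSetoid G)
  have hsurj : ∀ a : Quotient (orbSetoid G), a ∈ F.image q := by
    intro a
    obtain ⟨x, rfl⟩ := Quotient.exists_rep a
    obtain ⟨y, hy, hxy⟩ := hFF x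
    exact Finset.mem_image.2 ⟨y, hy, ((hq y x).2 (orb_symm hxy))⟩
  haveI : Fintype (Quotient (orbSetoid G)) := ⟨F.image q, hsurj⟩
  haveI : Nonempty (Quotient (orbSetoid G)) := ⟨q (Classical.arbitrary V)⟩
  have hout : ∀ x, Orb G (q x).out x := fun x =>
    (hq _ _).1 (Quotient.out_eq (q x))
  obtain ⟨L, w, hL, hw1, hwM, heq⟩ := perron
    (fun a b : Quotient (orbSetoid G) => (cnt G a.out b.out : ℝ)) (m := m) (M := M) hm
    (fun a b => h1 _ _) (fun a b => by
      refine le_trans ?_ (h2 a.out)
      have : cnt G a.out b.out ≤ (G.neighborFinset a.out).card := by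
        unfold cnt
        exact Finset.card_filter_le _ _
      exact_mod_cast this)
  refine ⟨L, fun x => w (q x), hL, fun x => hw1 _, fun x => hwM _, fun x y hxy => ?_, fun x => ?_⟩
  · show w (q x) = w (q y)
    rw [(hq x y).2 hxy]
  · show ∑ y ∈ G.neighborFinset x, w (q y) = L * w (q x)
    rw [← heq (q x)]
    rw [← Finset.sum_fiberwise_of_maps_to (s := G.neighborFinset x)
      (t := (Finset.univ : Finset (Quotient (orbSetoid G)))) (g := q) (fun y _ => Finset.mem_univ _)]
    refine Finset.sum_congr rfl fun b _ => ?_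
    have hc : (cnt G (q x).out b.out : ℝ)
        = (((G.neighborFinset x).filter (fun y => q y = b)).card : ℝ) := by
      rw [cnt_left G b.out (hout x)]
      unfold cnt
      congr 2
      refine Finset.filter_congr fun y _ => ?_
      constructor
      · intro h
        have := (hq _ _).2 h
        rw [← this]
        exact Quotient.out_eq b
      · intro h
        rw [← h]
        exact hout y
    show _ = (cnt G (q x).out b.out : ℝ) * w b
    rw [hc, ← nsmul_eq_mul, ← Finset.sum_const]
    refine Finset.sum_congr rfl fun y hy => ?_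
    rw [(Finset.mem_filter.1 hy).2]

end QT
end Vale.Agent.P165
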