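import Vale.Agent.P165.Q.QDefs
import Vale.Agent.P165.CH

/-!
# P165 QT, row QW: weighted Cheeger inequality and walk counts
-/

open Finset

namespace Vale.Agent.P165
namespace QT

namespace W

variable {V : Type*} [DecidableEq V] (G : SimpleGraph V) [G.LocallyFinite]

/-- weighted discrete co-area inequality -/
theorem coarea (c : ℝ) (m : V → V → ℝ) (π : V → ℝ) (hm : ∀ x y, 0 ≤ m x y)
    (hE : ∀ A : Finset V, c * ∑ x ∈ A, π x ≤ ∑ x ∈ A, ∑ y ∈ (G.neighborFinset x) \ A, m x y) :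
    ∀ (n : ℕ) (A : Finset V), A.card = n → ∀ g : V → ℝ, (∀ x, 0 ≤ g x) → (∀ x, x ∉ A → g x = 0) →
      c * ∑ x ∈ A, π x * g x
        ≤ ∑ x ∈ A, ∑ y ∈ G.neighborFinset x, m x y * max (g x - g y) 0 := by
  intro n
  induction n with
  | zero =>
    intro A hA g _ _
    rw [Finset.card_eq_zero] at hA
    subst hA
    simp
  | succ n ih =>
    intro A hA g hg hs
    have hne : A.Nonempty := by
      rw [← Finset.card_pos]; omega
    obtain ⟨x0, hx0, hmin⟩ := Finset.exists_min_image A g hne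
    set t := g x0 with ht
    let g' : V → ℝ := fun x => if x ∈ A then g x - t else 0
    have hg' : ∀ x, 0 ≤ g' x := by
      intro x
      by_cases hx : x ∈ A
      · simp only [g', hx, if_true]
        have := hmin x hx
        linarith
      · simp [g', hx]
    have hs' : ∀ x, x ∉ A.erase x0 → g' x = 0 := by
      intro x hx
      by_cases hxA : x ∈ A
      · have : x = x0 := by
          by_contra h
          exact hx (Finset.mem_erase.mpr ⟨h, hxA⟩)
        subst this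
        simp only [g', hxA, if_true]
        linarith
      · simp [g', hxA]
    have hcard : (A.erase x0).card = n := by
      rw [Finset.card_erase_of_mem hx0, hA]; rfl
    have h1 := ih (A.erase x0) hcard g' hg' hs'
    have h2 : ∑ x ∈ A.erase x0, π x * g' x = ∑ x ∈ A, π x * g' x := by
      apply Finset.sum_subset (Finset.erase_subset _ _)
      intro x _ hx
      rw [hs' x hx, mul_zero]
    have h3 : ∑ x ∈ A, π x * g x = ∑ x ∈ A, π x * g' x + t * ∑ x ∈ A, π x := by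
      have : ∀ x ∈ A, π x * g x = π x * g' x + t * π x := by
        intro x hx
        simp only [g', hx, if_true]
        ring
      rw [Finset.sum_congr rfl this, Finset.sum_add_distrib, ← Finset.mul_sum]
    have h4 : ∑ x ∈ A.erase x0, ∑ y ∈ G.neighborFinset x, m x y * max (g' x - g' y) 0
        ≤ ∑ x ∈ A, ∑ y ∈ G.neighborFinset x, m x y * max (g' x - g' y) 0 := by
      apply Finset.sum_le_sum_of_subset_of_nonneg (Finset.erase_subset _ _)
      intro x _ _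
      exact Finset.sum_nonneg (fun y _ => mul_nonneg (hm x y) (le_max_right _ _))
    have h5 : ∀ x ∈ A, ∑ y ∈ G.neighborFinset x, m x y * max (g x - g y) 0
        = ∑ y ∈ G.neighborFinset x, m x y * max (g' x - g' y) 0
          + t * ∑ y ∈ G.neighborFinset x \ A, m x y := by
      intro x hx
      have hp : ∀ y ∈ G.neighborFinset x, m x y * max (g x - g y) 0
          = m x y * max (g' x - g' y) 0 + (if y ∉ A then t * m x y else 0) := by
        intro y _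
        by_cases hy : y ∈ A
        · simp only [g', hx, hy, if_true, not_true, if_false]
          have : g x - t - (g y - t) = g x - g y := by ring
          rw [this, add_zero]
        · simp only [g', hx, hy, if_true, if_false, not_false_iff]
          have hxm := hmin x hx
          have h0 := hg x
          rw [hs y hy, max_eq_left (by linarith), max_eq_left (by linarith)]
          ring
      rw [Finset.sum_congr rfl hp, Finset.sum_add_distrib]
      congr 1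
      rw [← Finset.sum_filter, ← Finset.mul_sum, Finset.sdiff_eq_filter]
    rw [Finset.sum_congr rfl h5, Finset.sum_add_distrib, ← Finset.mul_sum, h3, ← h2, mul_add]
    have h6 := hE A
    have ht0 : 0 ≤ t := hg x0
    have h7 : c * (t * ∑ x ∈ A, π x) ≤ t * ∑ x ∈ A, ∑ y ∈ G.neighborFinset x \ A, m x y := by
      have := mul_le_mul_of_nonneg_left h6 ht0
      linarith
    linarith

/-- weighted Cheeger inequality, squared form -/
theorem cheeger_sq (h : V → ℝ) (hh : ∀ x, 0 < h x) (Λ : ℝ) (hΛ : 0 ≤ Λ)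
    (heig : ∀ x, ∑ y ∈ G.neighborFinset x, h y = Λ * h x) (c : ℝ) (hc : 0 ≤ c)
    (hE : ∀ A : Finset V, c * ∑ x ∈ A, h x ^ 2
      ≤ ∑ x ∈ A, ∑ y ∈ (G.neighborFinset x) \ A, h x * h y)
    (B : Finset V) (f : V → ℝ) (hf : ∀ x, x ∉ B → f x = 0) :
    (∑ x ∈ B, ∑ y ∈ G.neighborFinset x, f x * f y) ^ 2
      ≤ (Λ ^ 2 - c ^ 2) * (∑ x ∈ B, f x ^ 2) ^ 2 := by
  classical
  set C : Finset V := B ∪ B.biUnion (fun x => G.neighborFinset x) with hC
  have hBC : B ⊆ C := Finset.subset_union_left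
  have hN : ∀ x ∈ B, G.neighborFinset x ⊆ C := by
    intro x hx y hy
    rw [hC, Finset.mem_union, Finset.mem_biUnion]
    exact Or.inr ⟨x, hx, hy⟩
  set φ : V → ℝ := fun x => f x / h x with hφ
  have hφ0 : ∀ x, x ∉ B → φ x = 0 := fun x hx => by simp only [hφ, hf x hx, zero_div]
  have hfφ : ∀ x, f x = h x * φ x := fun x => by
    simp only [hφ]; rw [mul_div_cancel₀ _ (ne_of_gt (hh x))]
  set S := ∑ x ∈ B, ∑ y ∈ G.neighborFinset x, f x * f y with hS
  set F := ∑ x ∈ B, f x ^ 2 with hF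
  have e1 : ∑ p ∈ Ch.prs G C, h p.1 * h p.2 * (φ p.1 * φ p.2) = S := by
    rw [Ch.sum_red G hBC hN (fun x y => h x * h y * (φ x * φ y))
      (fun x hx y => by simp only [hφ0 x hx]; ring)]
    apply Finset.sum_congr rfl
    intro x _
    apply Finset.sum_congr rfl
    intro y _
    rw [hfφ x, hfφ y]; ring
  have e2 : ∑ p ∈ Ch.prs G C, h p.1 * h p.2 * φ p.1 ^ 2 = Λ * F := by
    rw [Ch.sum_red G hBC hN (fun x y => h x * h y * φ x ^ 2)
      (fun x hx y => by simp only [hφ0 x hx]; ring)]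
    rw [hF, Finset.mul_sum]
    apply Finset.sum_congr rfl
    intro x _
    have : ∑ y ∈ G.neighborFinset x, h x * h y * φ x ^ 2
        = h x * φ x ^ 2 * ∑ y ∈ G.neighborFinset x, h y := by
      rw [Finset.mul_sum]
      apply Finset.sum_congr rfl
      intro y _
      ring
    rw [this, heig x, hfφ x]
    ring
  have e3 : ∑ p ∈ Ch.prs G C, h p.1 * h p.2 * φ p.2 ^ 2 = Λ * F := by
    rw [← e2]
    rw [Ch.sum_swap G C (fun x y => h x * h y * φ x ^ 2)]
    apply Finset.sum_congr rfl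
    intro p _
    ring
  have e4 : ∑ p ∈ Ch.prs G C, h p.1 * h p.2 * |φ p.1 ^ 2 - φ p.2 ^ 2|
      = 2 * ∑ x ∈ B, ∑ y ∈ G.neighborFinset x, h x * h y * max (φ x ^ 2 - φ y ^ 2) 0 := by
    have h1 : ∑ p ∈ Ch.prs G C, h p.1 * h p.2 * max (φ p.1 ^ 2 - φ p.2 ^ 2) 0
        = ∑ x ∈ B, ∑ y ∈ G.neighborFinset x, h x * h y * max (φ x ^ 2 - φ y ^ 2) 0 :=
      Ch.sum_red G hBC hN (fun x y => h x * h y * max (φ x ^ 2 - φ y ^ 2) 0) (fun x hx y => by
        have : max (φ x ^ 2 - φ y ^ 2) 0 = 0 := by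
          rw [hφ0 x hx]
          apply max_eq_right
          nlinarith [sq_nonneg (φ y)]
        rw [this, mul_zero])
    have h2 : ∑ p ∈ Ch.prs G C, h p.1 * h p.2 * max (φ p.2 ^ 2 - φ p.1 ^ 2) 0
        = ∑ p ∈ Ch.prs G C, h p.1 * h p.2 * max (φ p.1 ^ 2 - φ p.2 ^ 2) 0 := by
      rw [Ch.sum_swap G C (fun x y => h x * h y * max (φ y ^ 2 - φ x ^ 2) 0)]
      apply Finset.sum_congr rfl
      intro p _
      ring
    rw [← h1, two_mul]
    nth_rewrite 2 [← h2]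
    rw [← Finset.sum_add_distrib]
    apply Finset.sum_congr rfl
    intro p _
    rcases le_total (φ p.1 ^ 2) (φ p.2 ^ 2) with h | h
    · rw [abs_of_nonpos (by linarith), max_eq_right (by linarith), max_eq_left (by linarith)]
      ring
    · rw [abs_of_nonneg (by linarith), max_eq_left (by linarith), max_eq_right (by linarith)]
      ring
  have e5 := coarea G c (fun x y => h x * h y) (fun x => h x ^ 2)
    (fun x y => mul_nonneg (hh x).le (hh y).le) hE B.card B rfl (fun x => φ x ^ 2)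
    (fun x => sq_nonneg _) (fun x hx => by simp only [hφ0 x hx]; ring)
  have e6 : c * F ≤ ∑ x ∈ B, ∑ y ∈ G.neighborFinset x, h x * h y * max (φ x ^ 2 - φ y ^ 2) 0 := by
    refine le_trans (le_of_eq ?_) e5
    congr 1
    rw [hF]
    apply Finset.sum_congr rfl
    intro x _
    rw [hfφ x]; ring
  have hsq : ∀ p : V × V, Real.sqrt (h p.1 * h p.2) ^ 2 = h p.1 * h p.2 := fun p =>
    Real.sq_sqrt (mul_nonneg (hh _).le (hh _).le)
  have e7 : (∑ p ∈ Ch.prs G C, h p.1 * h p.2 * |φ p.1 ^ 2 - φ p.2 ^ 2|) ^ 2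
      ≤ (∑ p ∈ Ch.prs G C, h p.1 * h p.2 * (φ p.1 - φ p.2) ^ 2)
        * (∑ p ∈ Ch.prs G C, h p.1 * h p.2 * (φ p.1 + φ p.2) ^ 2) := by
    have := Finset.sum_mul_sq_le_sq_mul_sq (Ch.prs G C)
      (fun p => Real.sqrt (h p.1 * h p.2) * |φ p.1 - φ p.2|)
      (fun p => Real.sqrt (h p.1 * h p.2) * |φ p.1 + φ p.2|)
    simp only [mul_pow, sq_abs, hsq] at this
    refine le_trans (le_of_eq ?_) this
    congr 1
    apply Finset.sum_congr rfl
    intro p _
    have h1 : Real.sqrt (h p.1 * h p.2) * |φ p.1 - φ p.2|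
        * (Real.sqrt (h p.1 * h p.2) * |φ p.1 + φ p.2|)
        = Real.sqrt (h p.1 * h p.2) ^ 2 * (|φ p.1 - φ p.2| * |φ p.1 + φ p.2|) := by ring
    rw [h1, hsq, ← abs_mul]
    congr 2
    ring
  have e8 : ∑ p ∈ Ch.prs G C, h p.1 * h p.2 * (φ p.1 - φ p.2) ^ 2 = 2 * (Λ * F) - 2 * S := by
    have : ∀ p ∈ Ch.prs G C, h p.1 * h p.2 * (φ p.1 - φ p.2) ^ 2
        = h p.1 * h p.2 * φ p.1 ^ 2 + h p.1 * h p.2 * φ p.2 ^ 2
          - 2 * (h p.1 * h p.2 * (φ p.1 * φ p.2)) := by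
      intro p _; ring
    rw [Finset.sum_congr rfl this, Finset.sum_sub_distrib, Finset.sum_add_distrib,
      ← Finset.mul_sum, e1, e2, e3]
    ring
  have e9 : ∑ p ∈ Ch.prs G C, h p.1 * h p.2 * (φ p.1 + φ p.2) ^ 2 = 2 * (Λ * F) + 2 * S := by
    have : ∀ p ∈ Ch.prs G C, h p.1 * h p.2 * (φ p.1 + φ p.2) ^ 2
        = h p.1 * h p.2 * φ p.1 ^ 2 + h p.1 * h p.2 * φ p.2 ^ 2
          + 2 * (h p.1 * h p.2 * (φ p.1 * φ p.2)) := by
      intro p _; ring
    rw [Finset.sum_congr rfl this, Finset.sum_add_distrib, Finset.sum_add_distrib,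
      ← Finset.mul_sum, e1, e2, e3]
    ring
  rw [e8, e9, e4] at e7
  have hF0 : 0 ≤ F := Finset.sum_nonneg (fun x _ => sq_nonneg _)
  have e10 : (c * F) ^ 2
      ≤ (∑ x ∈ B, ∑ y ∈ G.neighborFinset x, h x * h y * max (φ x ^ 2 - φ y ^ 2) 0) ^ 2 := by
    apply pow_le_pow_left₀ _ e6
    positivity
  nlinarith [e7, e10]

/-- weighted Cheeger inequality -/
theorem cheeger (h : V → ℝ) (hh : ∀ x, 0 < h x) (Λ : ℝ) (hΛ : 0 ≤ Λ)
    (heig : ∀ x, ∑ y ∈ G.neighborFinset x, h y = Λ * h x) (c : ℝ) (hc : 0 ≤ c)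
    (hE : ∀ A : Finset V, c * ∑ x ∈ A, h x ^ 2
      ≤ ∑ x ∈ A, ∑ y ∈ (G.neighborFinset x) \ A, h x * h y)
    (B : Finset V) (f : V → ℝ) (hf : ∀ x, x ∉ B → f x = 0) :
    |∑ x ∈ B, ∑ y ∈ G.neighborFinset x, f x * f y|
      ≤ Real.sqrt (Λ ^ 2 - c ^ 2) * ∑ x ∈ B, f x ^ 2 := by
  have h1 := cheeger_sq G h hh Λ hΛ heig c hc hE B f hf
  have hF0 : 0 ≤ ∑ x ∈ B, f x ^ 2 := Finset.sum_nonneg (fun x _ => sq_nonneg _)
  rw [← Real.sqrt_sq_eq_abs]
  calc Real.sqrt ((∑ x ∈ B, ∑ y ∈ G.neighborFinset x, f x * f y) ^ 2)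
      ≤ Real.sqrt ((Λ ^ 2 - c ^ 2) * (∑ x ∈ B, f x ^ 2) ^ 2) := Real.sqrt_le_sqrt h1
    _ = Real.sqrt (Λ ^ 2 - c ^ 2) * (∑ x ∈ B, f x ^ 2) := by
      rw [Real.sqrt_mul' _ (sq_nonneg _), Real.sqrt_sq hF0]

end W

/-- [QW] -/
theorem walk {V : Type*} [DecidableEq V] (G : SimpleGraph V) [G.LocallyFinite] {h : V → ℝ}
    {Λ κ ε : ℝ} (hh1 : ∀ x, 1 ≤ h x) (hhκ : ∀ x, h x ≤ κ) (hε : 0 < ε) (hΛ : 0 < Λ)
    (heig : ∀ x, ∑ y ∈ G.neighborFinset x, h y = Λ * h x)
    (hE : ∀ A : Finset V, ε * Λ * A.card ≤ (ebd G A : ℝ)) :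
    (∀ k x y, nw G k x y ≤ (Real.sqrt (1 - (ε / κ ^ 2) ^ 2) * Λ) ^ k) ∧
    (∀ (k : ℕ) (B : Finset V), ∑ x ∈ B, ∑ y ∈ B, nw G k x y
      ≤ (Real.sqrt (1 - (ε / κ ^ 2) ^ 2) * Λ) ^ k * B.card) := by
  have hhpos : ∀ x, 0 < h x := fun x => lt_of_lt_of_le one_pos (hh1 x)
  set c := ε / κ ^ 2 * Λ with hc
  have hc0 : 0 ≤ c := by positivity
  have hE' : ∀ A : Finset V, c * ∑ x ∈ A, h x ^ 2
      ≤ ∑ x ∈ A, ∑ y ∈ (G.neighborFinset x) \ A, h x * h y := by
    intro A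
    rcases A.eq_empty_or_nonempty with hA | ⟨x0, hx0⟩
    · subst hA; simp
    have hκ : 0 < κ := lt_of_lt_of_le (hhpos x0) (hhκ x0)
    have h1 : ∑ x ∈ A, h x ^ 2 ≤ A.card * κ ^ 2 := by
      rw [← nsmul_eq_mul, ← Finset.sum_const]
      exact Finset.sum_le_sum fun x _ => pow_le_pow_left₀ (hhpos x).le (hhκ x) 2
    have h2 : (ebd G A : ℝ) ≤ ∑ x ∈ A, ∑ y ∈ (G.neighborFinset x) \ A, h x * h y := by
      unfold ebd
      push_cast
      refine Finset.sum_le_sum fun x _ => ?_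
      rw [← nsmul_one, ← Finset.sum_const]
      refine Finset.sum_le_sum fun y _ => ?_
      exact one_le_mul_of_one_le_of_one_le (hh1 x) (hh1 y)
    calc c * ∑ x ∈ A, h x ^ 2 ≤ c * (A.card * κ ^ 2) := mul_le_mul_of_nonneg_left h1 hc0
      _ = ε * Λ * A.card := by
          rw [hc]
          field_simp
      _ ≤ _ := hE A
      _ ≤ _ := h2
  have hr : Real.sqrt (Λ ^ 2 - c ^ 2) = Real.sqrt (1 - (ε / κ ^ 2) ^ 2) * Λ := by
    have : Λ ^ 2 - c ^ 2 = (1 - (ε / κ ^ 2) ^ 2) * Λ ^ 2 := by rw [hc]; ring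
    rw [this, Real.sqrt_mul' _ (sq_nonneg _), Real.sqrt_sq hΛ.le]
  have hQ : ∀ (B : Finset V) (f : V → ℝ), (∀ x, x ∉ B → f x = 0) →
      |∑ x ∈ B, ∑ y ∈ G.neighborFinset x, f x * f y|
        ≤ (Real.sqrt (1 - (ε / κ ^ 2) ^ 2) * Λ) * ∑ x ∈ B, f x ^ 2 := by
    intro B f hf
    rw [← hr]
    exact W.cheeger G h hhpos Λ hΛ.le heig c hc0 hE' B f hf
  have hr0 : 0 ≤ Real.sqrt (1 - (ε / κ ^ 2) ^ 2) * Λ := mul_nonneg (Real.sqrt_nonneg _) hΛ.le
  constructor
  · intro k x y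
    rw [CH.nw_eq]
    exact Ch.nwk_le G _ hr0 hQ x y k
  · intro k B
    have := Ch.nwk_sum_le' G _ hr0 hQ B k
    simpa only [CH.nw_eq] using this

end QT
end Vale.Agent.P165
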