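import Vale.Agent.P165.Q.QBALL
import Vale.Agent.P165.Q.QEIG
import Vale.Agent.P165.Q.QPU
import Vale.Agent.P165.Q.QW
import Vale.Agent.P165.FIN2
import Vale.Agent.P165.Inf2
import Vale.Agent.P165.PHW
import Vale.Agent.P165.DBW

/-!
P165: all large powers of every nonamenable quasi-transitive graph.
-/

open Finset

namespace Vale.Agent.P165
namespace QT
namespace QM

variable {V : Type*} [DecidableEq V]

/-- quasi-transitive graphs with a bounded positive eigenfunction of large eigenvalue -/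
theorem core {κ ε : ℝ} (hκ : 1 ≤ κ) (hε : 0 < ε) (hε1 : ε ≤ 1 / 2) :
    ∃ Λ0 : ℝ, 0 < Λ0 ∧ ∀ (V : Type*) (_ : DecidableEq V) (_ : Infinite V) (G : SimpleGraph V)
      (_ : G.LocallyFinite), G.Connected → Quasi G → ∀ (h : V → ℝ) (Λ : ℝ), Λ0 ≤ Λ →
      (∀ x, 1 ≤ h x) → (∀ x, h x ≤ κ) → (∀ x, ∑ y ∈ G.neighborFinset x, h y = Λ * h x) →
      (∀ A : Finset V, ε * Λ * A.card ≤ (ebd G A : ℝ)) → pc G < pu G := by
  set s : ℝ := Real.sqrt (1 - (ε / κ ^ 2) ^ 2) with hs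
  have hκ2 : 1 ≤ κ ^ 2 := one_le_pow₀ hκ
  have hq0 : 0 < ε / κ ^ 2 := by positivity
  have hq1 : ε / κ ^ 2 ≤ 1 / 2 := by
    rw [div_le_iff₀ (by positivity)]
    nlinarith
  have hs0 : 0 < s := Real.sqrt_pos.2 (by nlinarith)
  have hs1 : s < 1 := by
    rw [hs, Real.sqrt_lt' one_pos]
    nlinarith
  set δ : ℝ := 1 - s with hδ
  have hδ0 : 0 < δ := by linarith
  have hδ1 : δ < 1 := by linarith
  refine ⟨54 * κ ^ 2 / δ ^ 3, by positivity, ?_⟩
  intro V _ _ G _ hG hF h Λ hΛ hh1 hhκ heig hE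
  have hΛ0 : 0 < Λ := lt_of_lt_of_le (by positivity) hΛ
  obtain ⟨hnw, hB⟩ := walk G hh1 hhκ hε hΛ0 heig hE
  have hsδ : s = 1 - δ := by rw [hδ]; ring
  rw [← hs, hsδ] at hnw hB
  have hL : 54 * κ ^ 2 ≤ Λ * δ ^ 3 := by
    rwa [div_le_iff₀ (by positivity)] at hΛ
  have hdeg : ∀ y, (G.degree y : ℝ) ≤ κ * Λ := by
    intro y
    have h1 : (G.degree y : ℝ) ≤ ∑ z ∈ G.neighborFinset y, h z := by
      calc (G.degree y : ℝ) = ∑ _z ∈ G.neighborFinset y, (1 : ℝ) := by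
            rw [sum_const, nsmul_eq_mul, mul_one, SimpleGraph.card_neighborFinset_eq_degree]
        _ ≤ _ := sum_le_sum fun z _ => hh1 z
    rw [heig y] at h1
    calc (G.degree y : ℝ) ≤ Λ * h y := h1
      _ ≤ Λ * κ := mul_le_mul_of_nonneg_left (hhκ y) hΛ0.le
      _ = κ * Λ := by ring
  obtain ⟨hp1, h10, hp0, hpr, hcrit⟩ := fin3 G hδ0 hδ1 hκ hL hdeg hB
  set p1 : ℝ := (1 + δ / 4) / Λ with hp1d
  set p0 : ℝ := (1 + δ / 2) / Λ with hp0d
  set r : ℝ := (1 - δ) * Λ with hr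
  have hr0 : 0 < r := mul_pos (by linarith) hΛ0
  obtain ⟨o⟩ : Nonempty V := inferInstance
  have hphi : ∀ p ∈ Set.Icc p1 p0, ∀ S : Finset V, o ∈ S → 1 / κ ≤ phi G p S o := by
    intro p hp S hS
    have hprr : p * r < 1 := lt_of_le_of_lt (mul_le_mul_of_nonneg_right hp.2 hr0.le) hpr
    have h1 := phi_ge_weighted (hp1.le.trans hp.1) (hp.2.trans hp0) hr0.le hprr hnw hh1 hhκ
      (fun y => (heig y).ge) (hcrit p hp.1 hp.2) hS
    rw [div_le_iff₀ (by linarith)]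
    linarith
  have hth := theta_ge_w hp1 h10.le hp0 hphi
  have hp0pos : 0 < p0 := hp1.trans h10
  have hc : 0 < 1 - (p1 / p0) ^ (1 / κ) := by
    have h1 : p1 / p0 < 1 := (div_lt_one hp0pos).2 h10
    have h2 : (p1 / p0) ^ (1 / κ) < 1 :=
      Real.rpow_lt_one (div_nonneg hp1.le hp0pos.le) h1 (by positivity)
    linarith
  have h1 := pc_le hG ⟨p0, hp0pos.le, hp0⟩ hc hth
  have h2 := QT.pu_ge G hG (orb_infinite G hG hF) hr0 hnw hB
  have h3 : p0 < 1 / r := by rwa [lt_div_iff₀ hr0]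
  calc pc G ≤ p0 := h1
    _ < 1 / r := h3
    _ ≤ pu G := h2

end QM

open QM

/-- [QMAIN] all large powers of every nonamenable quasi-transitive graph -/
theorem qt_pow {V : Type*} [DecidableEq V] [Infinite V] (G : SimpleGraph V) [G.LocallyFinite]
    (hG : G.Connected) (hF : Quasi G) {h : ℝ} (h0 : 0 < h)
    (hA : ∀ A : Finset V, h * (A.card : ℝ) ≤ ((Pow.vbd G A).card : ℝ)) :
    ∃ k0 : ℕ, ∀ k, k0 ≤ k → pc (pw G k) < pu (pw G k) := by
  classical
  obtain ⟨c, C, e, b, hc, hC, he, hb, k1, hk1, hbd⟩ := pw_bounds G hG hF h0 hA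
  set κ : ℝ := max 1 (C / c) with hκ
  have hκ1 : 1 ≤ κ := le_max_left _ _
  have hκ0 : 0 < κ := by linarith
  set ε : ℝ := min (1 / 2) (e / (κ * C)) with hε
  have hε0 : 0 < ε := lt_min (by norm_num) (by positivity)
  obtain ⟨Λ0, hΛ0, hcore⟩ := core.{_} (κ := κ) (ε := ε) hκ1 hε0 (min_le_left _ _)
  obtain ⟨k2, hk2⟩ := hb (κ * Λ0 / c)
  refine ⟨max k1 k2, fun k hk => ?_⟩
  have hkk1 : k1 ≤ k := (le_max_left _ _).trans hk
  have hkk2 : k2 ≤ k := (le_max_right _ _).trans hk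
  let _ : (pw G k).LocallyFinite := Pow.pwLF G k
  obtain ⟨hb1, hb2, hb3⟩ := hbd k hkk1 inferInstance
  have hbk : κ * Λ0 / c ≤ b k := hk2 k hkk2
  have hbk0 : 0 < b k := lt_of_lt_of_le (by positivity) hbk
  have hm : 0 < c * b k := mul_pos hc hbk0
  obtain ⟨Λ, w, hΛ, hw1, hw2, hwo, heig⟩ := eig (pw G k) (pw_quasi G hF k) hm hb1 hb2
  have hw3 : ∀ x, w x ≤ κ := by
    intro x
    refine (hw2 x).trans ?_
    have h1 : C * b k / (c * b k) = C / c := mul_div_mul_right _ _ hbk0.ne'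
    rw [h1]
    exact le_max_right _ _
  obtain ⟨o⟩ : Nonempty V := inferInstance
  have hΛge : c * b k ≤ κ * Λ := by
    have h1 : (cnt (pw G k) o o : ℝ) ≤ (((pw G k).neighborFinset o).card : ℝ) := by
      exact_mod_cast card_le_card (filter_subset _ _)
    have h2 : (((pw G k).neighborFinset o).card : ℝ) ≤ ∑ z ∈ (pw G k).neighborFinset o, w z := by
      calc (((pw G k).neighborFinset o).card : ℝ)
          = ∑ _z ∈ (pw G k).neighborFinset o, (1 : ℝ) := by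
            rw [sum_const, nsmul_eq_mul, mul_one]
        _ ≤ _ := sum_le_sum fun z _ => hw1 z
    rw [heig o] at h2
    calc c * b k ≤ (cnt (pw G k) o o : ℝ) := hb1 o o
      _ ≤ Λ * w o := h1.trans h2
      _ ≤ Λ * κ := mul_le_mul_of_nonneg_left (hw3 o) hΛ.le
      _ = κ * Λ := by ring
  have hΛle : Λ ≤ κ * C * b k := by
    have h1 : Λ * 1 ≤ Λ * w o := mul_le_mul_of_nonneg_left (hw1 o) hΛ.le
    rw [← heig o] at h1
    calc Λ = Λ * 1 := (mul_one Λ).symm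
      _ ≤ ∑ z ∈ (pw G k).neighborFinset o, w z := h1
      _ ≤ ∑ _z ∈ (pw G k).neighborFinset o, κ := sum_le_sum fun z _ => hw3 z
      _ = κ * (((pw G k).neighborFinset o).card : ℝ) := by
          rw [sum_const, nsmul_eq_mul]; ring
      _ ≤ κ * (C * b k) := mul_le_mul_of_nonneg_left (hb2 o) hκ0.le
      _ = κ * C * b k := by ring
  refine hcore V inferInstance inferInstance (pw G k) inferInstance
    (Pow.pw_connected hG (hk1.trans hkk1)) (pw_quasi G hF k) w Λ ?_ hw1 hw3 heig ?_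
  · rw [div_le_iff₀ hc] at hbk
    have h1 : κ * Λ0 ≤ κ * Λ := by linarith
    exact le_of_mul_le_mul_left h1 hκ0
  · intro A
    refine le_trans ?_ (hb3 A)
    have h1 : ε * Λ ≤ e * b k := by
      calc ε * Λ ≤ (e / (κ * C)) * (κ * C * b k) :=
            mul_le_mul (min_le_right _ _) hΛle hΛ.le (by positivity)
        _ = e * b k := by field_simp
    exact mul_le_mul_of_nonneg_right h1 (Nat.cast_nonneg _)

end QT
end Vale.Agent.P165
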