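import Vale.Agent.P165.Q.QDefs
import Vale.Agent.P165.Bern
import Vale.Agent.P165.FinPerc
import Vale.Agent.P165.U12

/-!
# P165 QT, row QMONO: the functional of Duminil-Copin and Tassion is nondecreasing in `p`
-/

open Finset

namespace Vale.Agent.P165
namespace QT

namespace Mono

variable {α : Type*} [DecidableEq α]

/-- expectations of increasing functions are nondecreasing in `p` -/
theorem ex_mono_p {p q : ℝ} (h0 : 0 ≤ p) (hpq : p ≤ q) (h1 : q ≤ 1) (E : Finset α) :
    ∀ f : Finset α → ℝ, (∀ ω ω' : Finset α, ω ⊆ ω' → f ω ≤ f ω') → ex p E f ≤ ex q E f := by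
  induction E using Finset.induction_on with
  | empty =>
    intro f _
    rw [ex_empty, ex_empty]
  | insert e E he ih =>
    intro f hf
    rw [ex_insert p he, ex_insert q he]
    have hA := ih (fun ω => f (insert e ω)) (fun ω ω' h => hf _ _ (Finset.insert_subset_insert e h))
    have hB := ih f hf
    have hAB : ex q E f ≤ ex q E (fun ω => f (insert e ω)) :=
      ex_mono (le_trans h0 hpq) h1 (fun ω _ => hf _ _ (Finset.subset_insert e ω))
    have h2 : p * ex p E (fun ω => f (insert e ω)) ≤ p * ex q E (fun ω => f (insert e ω)) :=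
      mul_le_mul_of_nonneg_left hA h0
    have h3 : (1 - p) * ex p E f ≤ (1 - p) * ex q E f :=
      mul_le_mul_of_nonneg_left hB (by linarith)
    nlinarith [mul_nonneg (sub_nonneg.mpr hpq) (sub_nonneg.mpr hAB)]

theorem tau_mono_p {V : Type*} [DecidableEq V] (G : SimpleGraph V) {p q : ℝ} (h0 : 0 ≤ p)
    (hpq : p ≤ q) (h1 : q ≤ 1) (S : Finset V) (x y : V) : tau G p S x y ≤ tau G q S x y := by
  unfold tau pr
  apply ex_mono_p h0 hpq h1
  intro ω ω' h
  exact FP.ind_mono (fun hc => Cn.mono hc h (Finset.Subset.refl S))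

end Mono

/-- [QMONO] -/
theorem phi_mono {V : Type*} [DecidableEq V] (G : SimpleGraph V) [G.LocallyFinite] {p q : ℝ}
    (h0 : 0 ≤ p) (hpq : p ≤ q) (h1 : q ≤ 1) (S : Finset V) (o : V) :
    phi G p S o ≤ phi G q S o := by
  unfold phi
  apply mul_le_mul hpq _ _ (le_trans h0 hpq)
  · apply Finset.sum_le_sum
    intro x _
    apply Finset.sum_le_sum
    intro z _
    exact Mono.tau_mono_p G h0 hpq h1 S o x
  · apply Finset.sum_nonneg
    intro x _
    apply Finset.sum_nonneg
    intro z _
    exact U12.tau_nonneg h0 (le_trans hpq h1) S o x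

end QT
end Vale.Agent.P165
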