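import Vale.Agent.P165.Q.QDefs
import Vale.Agent.P165.X

/-!
# P165 QT, row QX: the susceptibility is unbounded (quasi-transitive case)
-/

open Finset

namespace Vale.Agent.P165
namespace QT

namespace X

variable {V : Type*} [DecidableEq V] {G : SimpleGraph V} [G.LocallyFinite] {p : ℝ}

omit [DecidableEq V] [G.LocallyFinite] in
theorem orb_refl (x : V) : Orb G x x := ⟨SimpleGraph.Iso.refl, rfl⟩

omit [DecidableEq V] [G.LocallyFinite] in
theorem orb_symm {x y : V} (h : Orb G x y) : Orb G y x := by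
  obtain ⟨φ, rfl⟩ := h
  exact ⟨φ.symm, φ.symm_apply_apply x⟩

/-- the supremum of the finite-volume susceptibilities -/
noncomputable def XX (G : SimpleGraph V) (p : ℝ) (x : V) : ℝ :=
  sSup {t : ℝ | ∃ L : Finset V, chi G p L x = t}

omit [DecidableEq V] [G.LocallyFinite] in
theorem le_XX {M : ℝ} (hM : ∀ (L : Finset V) (x : V), chi G p L x ≤ M) (L : Finset V) (x : V) :
    chi G p L x ≤ XX G p x :=
  le_csSup ⟨M, by rintro t ⟨L, rfl⟩; exact hM L x⟩ ⟨L, rfl⟩

omit [DecidableEq V] [G.LocallyFinite] in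
theorem XX_le {K : ℝ} {x : V} (h : ∀ L : Finset V, chi G p L x ≤ K) : XX G p x ≤ K :=
  csSup_le ⟨_, ∅, rfl⟩ (by rintro t ⟨L, rfl⟩; exact h L)

omit [DecidableEq V] [G.LocallyFinite] in
theorem lt_chi {K : ℝ} {x : V} (h : K < XX G p x) : ∃ L : Finset V, K < chi G p L x := by
  have hne : Set.Nonempty {t : ℝ | ∃ L : Finset V, chi G p L x = t} := ⟨_, ∅, rfl⟩
  obtain ⟨t, ⟨L, rfl⟩, ht⟩ := exists_lt_of_lt_csSup hne h
  exact ⟨L, ht⟩

omit [G.LocallyFinite] in
theorem XX_orb {x y : V} (h : Orb G x y) : XX G p x = XX G p y := by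
  obtain ⟨φ, rfl⟩ := h
  unfold XX
  congr 1
  ext t
  constructor
  · rintro ⟨L, rfl⟩
    exact ⟨L.image φ, Iso.chi_iso φ p L x⟩
  · rintro ⟨L, rfl⟩
    refine ⟨L.image φ.symm, ?_⟩
    have h1 := Iso.chi_iso φ.symm p L (φ x)
    rwa [φ.symm_apply_apply x] at h1

end X

open X in
/-- [QX] -/
theorem chi_not_bdd {V : Type*} [DecidableEq V] [Nonempty V] (G : SimpleGraph V)
    [G.LocallyFinite] (hF : Quasi G)
    {p r : ℝ} (h0 : 0 ≤ p) (h1 : p ≤ 1) (hr0 : 0 ≤ r) (hpr : p * r < 1)
    (hnw : ∀ k x y, nw G k x y ≤ r ^ k)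
    {h : V → ℝ} {Λ c0 c : ℝ} (hh1 : ∀ x, 1 ≤ h x)
    (hinv : ∀ x y, Orb G x y → h x = h y)
    (heig : ∀ x, ∑ y ∈ G.neighborFinset x, h y = Λ * h x)
    (hmix : ∀ x y, c0 * Λ ≤ (cnt G x y : ℝ))
    (hcrit : ∀ o, crit G p o ≤ c) (hpΛ : 1 < p * Λ)
    (hc : c ≤ (p * Λ - 1) * (c0 - c)) :
    ¬ ∃ M : ℝ, ∀ (L : Finset V) (x : V), chi G p L x ≤ M := by
  rintro ⟨M, hM⟩
  classical
  obtain ⟨F, hFF⟩ := hF
  obtain ⟨z0⟩ : Nonempty V := inferInstance
  have hFne : F.Nonempty := by
    obtain ⟨y, hy, _⟩ := hFF z0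
    exact ⟨y, hy⟩
  set Xf : V → ℝ := XX G p with hXf
  have hchi0 : ∀ (L : Finset V) (x : V), 0 ≤ chi G p L x := fun L x => XX.chi_nonneg h0 h1 L x
  have hX0 : ∀ x, 0 ≤ Xf x := fun x => le_trans (hchi0 {x} x) (le_XX hM {x} x)
  -- the maximum
  obtain ⟨w, hwF, hw⟩ := Finset.exists_max_image F Xf hFne
  have hwmax : ∀ x, Xf x ≤ Xf w := by
    intro x
    obtain ⟨y, hy, hxy⟩ := hFF x
    rw [hXf, XX_orb hxy]
    exact hw y hy
  set M' := Xf w with hM'
  have hXle : ∀ (L : Finset V) (x : V), chi G p L x ≤ M' := fun L x =>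
    le_trans (le_XX hM L x) (hwmax x)
  have hM'1 : 1 ≤ M' := by
    have h2 : (1:ℝ) ≤ chi G p {w} w := by
      unfold chi
      rw [Finset.sum_singleton]
      exact (U12.tau_self (Finset.mem_singleton_self w)).ge
    exact le_trans h2 (le_XX hM {w} w)
  have hgr : ∀ x y, 0 ≤ gr G p x y := fun x y => U12.gr_nonneg h0 x y
  -- the limit of row B
  have hlim : ∀ o, 1 + p * ∑ v ∈ G.neighborFinset o, Xf v - c * M' ≤ Xf o := by
    intro o
    by_contra hcon
    push Not at hcon
    set N := G.neighborFinset o with hN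
    set gap := 1 + p * ∑ v ∈ N, Xf v - c * M' - Xf o with hgap
    have hgap0 : 0 < gap := by rw [hgap]; linarith
    set δ := gap / (p * N.card + 1) / 2 with hδ
    have hpN : 0 ≤ p * (N.card : ℝ) := mul_nonneg h0 (Nat.cast_nonneg _)
    have hδ0 : 0 < δ := by rw [hδ]; positivity
    have hex : ∀ v, ∃ L : Finset V, Xf v - δ < chi G p L v := fun v => lt_chi (by
      rw [hXf]; linarith)
    choose Lv hLv using hex
    set L : Finset V := insert o (N ∪ N.biUnion Lv) with hL
    have hoL : o ∈ L := Finset.mem_insert_self _ _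
    have hNL : N ⊆ L := (Finset.subset_union_left).trans (Finset.subset_insert _ _)
    have hchi : ∀ v ∈ N, Xf v - δ ≤ chi G p L v := by
      intro v hv
      have hsub : Lv v ⊆ L := by
        refine Finset.Subset.trans ?_ (Finset.subset_insert _ _)
        refine Finset.Subset.trans ?_ Finset.subset_union_right
        exact Finset.subset_biUnion_of_mem Lv hv
      exact le_trans (hLv v).le (XX.chi_mono h0 h1 hsub v)
    have key := BonX.B G h0 h1 (Green.term_summable h0 hr0 hnw hpr) L o hoL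
    rw [← hN, Finset.inter_eq_left.2 hNL] at key
    have hS1 : ∑ v ∈ N, Xf v - N.card * δ - M' * ∑ v ∈ N, gr G p v o
        ≤ ∑ v ∈ N, (chi G p L v - gr G p v o * chi G p L o) := by
      rw [← nsmul_eq_mul, ← Finset.sum_const, Finset.mul_sum, ← Finset.sum_sub_distrib,
        ← Finset.sum_sub_distrib]
      refine Finset.sum_le_sum fun v hv => ?_
      have h2 := hchi v hv
      have h3 : gr G p v o * chi G p L o ≤ M' * gr G p v o := by
        rw [mul_comm M']
        exact mul_le_mul_of_nonneg_left (hXle L o) (hgr v o)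
      linarith
    have hS2 : ∑ v ∈ N, ∑ v' ∈ N.erase v,
        ∑ u ∈ L, gr G p v u * gr G p v' u * chi G p L u
        ≤ M' * ∑ v ∈ N, ∑ v' ∈ N, ∑ u ∈ L, gr G p v u * gr G p v' u := by
      rw [Finset.mul_sum]
      refine Finset.sum_le_sum fun v _ => ?_
      rw [Finset.mul_sum]
      calc ∑ v' ∈ N.erase v, ∑ u ∈ L, gr G p v u * gr G p v' u * chi G p L u
          ≤ ∑ v' ∈ N, ∑ u ∈ L, gr G p v u * gr G p v' u * chi G p L u := by
            refine Finset.sum_le_sum_of_subset_of_nonneg (Finset.erase_subset _ _) ?_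
            intro v' _ _
            exact Finset.sum_nonneg fun u _ => mul_nonneg (mul_nonneg (hgr _ _) (hgr _ _))
              (hchi0 L u)
        _ ≤ ∑ v' ∈ N, M' * ∑ u ∈ L, gr G p v u * gr G p v' u := by
            refine Finset.sum_le_sum fun v' _ => ?_
            rw [Finset.mul_sum]
            refine Finset.sum_le_sum fun u _ => ?_
            rw [mul_comm M']
            exact mul_le_mul_of_nonneg_left (hXle L u) (mul_nonneg (hgr _ _) (hgr _ _))
    have hgreen := Green.le_crit h0 hr0 hnw hpr (G := G) L o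
    rw [← hN] at hgreen
    set s1 : ℝ := ∑ v ∈ N, gr G p v o with hs1
    set s2 : ℝ := ∑ v ∈ N, ∑ v' ∈ N, ∑ u ∈ L, gr G p v u * gr G p v' u with hs2
    have h5 := mul_le_mul_of_nonneg_left hS1 h0
    have h6 := mul_le_mul_of_nonneg_left hS2 (by positivity : (0 : ℝ) ≤ p ^ 2 / 2)
    have h7 : M' * (p * s1 + p ^ 2 / 2 * s2) ≤ M' * c :=
      mul_le_mul_of_nonneg_left (hgreen.trans (hcrit o)) (by linarith)
    have h8 : chi G p L o ≤ Xf o := le_XX hM L o
    have h9 : p * N.card * δ < gap := by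
      rw [hδ, div_div, mul_div_assoc']
      rw [div_lt_iff₀ (by positivity)]
      nlinarith
    nlinarith [h5, h6, h7, h8, h9, key]
  have hc0 : 0 ≤ c := by
    refine le_trans ?_ (hcrit z0)
    unfold crit
    exact tsum_nonneg fun k => mul_nonneg (by positivity)
      (mul_nonneg (pow_nonneg h0 _) (U12.nw_nonneg _ _ _))
  -- Harnack
  have hharnack : ∀ o, (c0 - c) * M' ≤ Xf o := by
    intro o
    have h2 := hlim o
    have h3 : (cnt G o w : ℝ) * M' ≤ ∑ v ∈ G.neighborFinset o, Xf v := by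
      unfold cnt
      rw [← nsmul_eq_mul, ← Finset.sum_const]
      calc ∑ _z ∈ (G.neighborFinset o).filter (fun z => Orb G w z), M'
          = ∑ z ∈ (G.neighborFinset o).filter (fun z => Orb G w z), Xf z := by
            refine Finset.sum_congr rfl fun z hz => ?_
            rw [hM', hXf]
            exact XX_orb (Finset.mem_filter.1 hz).2
        _ ≤ ∑ v ∈ G.neighborFinset o, Xf v :=
            Finset.sum_le_sum_of_subset_of_nonneg (Finset.filter_subset _ _)
              (fun z _ _ => hX0 z)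
    have h4 := hmix o w
    have h5 : c0 * Λ * M' ≤ (cnt G o w : ℝ) * M' :=
      mul_le_mul_of_nonneg_right h4 (by linarith)
    have h6 : p * (c0 * Λ * M') ≤ p * ∑ v ∈ G.neighborFinset o, Xf v :=
      mul_le_mul_of_nonneg_left (h5.trans h3) h0
    have h7 : c0 * M' ≤ p * (c0 * Λ * M') := by
      have hc0' : 0 ≤ c0 := by
        have : 0 ≤ c0 - c := by
          by_contra hneg
          push Not at hneg
          have : (p * Λ - 1) * (c0 - c) < 0 := mul_neg_of_pos_of_neg (by linarith) hneg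
          linarith
        linarith
      have : c0 * M' * 1 ≤ c0 * M' * (p * Λ) :=
        mul_le_mul_of_nonneg_left hpΛ.le (mul_nonneg hc0' (by linarith))
      nlinarith
    nlinarith
  -- the minimum of X / h
  obtain ⟨o, hoF, ho⟩ := Finset.exists_min_image F (fun x => Xf x / h x) hFne
  set t := Xf o / h o with ht
  have hhpos : ∀ x, 0 < h x := fun x => lt_of_lt_of_le one_pos (hh1 x)
  have htmin : ∀ x, t * h x ≤ Xf x := by
    intro x
    obtain ⟨y, hy, hxy⟩ := hFF x
    have h2 := ho y hy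
    have h3 : Xf x = Xf y := XX_orb hxy
    rw [h3, hinv x y hxy]
    rw [ht]
    rwa [← le_div_iff₀ (hhpos y)]
  have hto : t * h o = Xf o := by
    rw [ht]
    exact div_mul_cancel₀ _ (ne_of_gt (hhpos o))
  have h2 := hlim o
  have h3 : t * (Λ * h o) ≤ ∑ v ∈ G.neighborFinset o, Xf v := by
    rw [← heig o, Finset.mul_sum]
    exact Finset.sum_le_sum fun v _ => htmin v
  have h4 : p * (t * (Λ * h o)) ≤ p * ∑ v ∈ G.neighborFinset o, Xf v :=
    mul_le_mul_of_nonneg_left h3 h0
  have h5 : p * (t * (Λ * h o)) = p * Λ * Xf o := by rw [← hto]; ring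
  have h6 : (p * Λ - 1) * Xf o ≤ c * M' - 1 := by linarith
  have h7 : (p * Λ - 1) * ((c0 - c) * M') ≤ (p * Λ - 1) * Xf o :=
    mul_le_mul_of_nonneg_left (hharnack o) (by linarith)
  have h8 : c * M' ≤ (p * Λ - 1) * (c0 - c) * M' :=
    mul_le_mul_of_nonneg_right hc (by linarith)
  linarith

end QT
end Vale.Agent.P165
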